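import Vale.Agent.P220I10.Main

/-!
The nearby Lagrangian conjecture is false, stated with no coordinates.
-/

open scoped ContDiff Manifold

namespace Vale.Agent.Results.P220.AAIntrinsic

open Vale.Agent.P220I

/-- (1) On every cotangent bundle the canonical one-form is smooth, `ω = dλ` exists and is unique,
and Hamiltonian vector fields exist and are unique.  (2) The nearby Lagrangian conjecture is false.
(3) It fails for a closed connected manifold `Q` such that every compactly supported Hamiltonian on
`T*Q` has a flow. -/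
theorem result :
    (∀ (n : ℕ) (Q : Type) [TopologicalSpace Q] [T2Space Q]
      [ChartedSpace (EuclideanSpace ℝ (Fin n)) Q] [IsManifold (𝓡 n) ∞ Q],
      Liouville (EuclideanSpace ℝ (Fin n)) Q) ∧
    ¬ NearbyLagrangian ∧
    ∃ (n : ℕ) (Q : Type) (_ : TopologicalSpace Q) (_ : T2Space Q) (_ : CompactSpace Q)
      (_ : ConnectedSpace Q) (_ : ChartedSpace (EuclideanSpace ℝ (Fin n)) Q)
      (_ : IsManifold (𝓡 n) ∞ Q),
      ¬ Nearby (EuclideanSpace ℝ (Fin n)) Q ∧ Flows (EuclideanSpace ℝ (Fin n)) Q := by
  refine ⟨fun n Q _ _ _ _ => liouville, fun h => ?_, counter⟩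
  obtain ⟨n, Q, _, _, _, _, _, _, h1, -⟩ := counter
  exact h1 (h n Q)

end Vale.Agent.Results.P220.AAIntrinsic
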